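import Vale.Agent.P235.K5.H281.Q4
import Vale.Agent.P235.K5.H56.SumR

/-!
# Sums over cliques with at most three vertices of graphs given by their quasi-4-connected minors
(helper801)

Pieces: treewidth at most `w`; or connected and every quasi-4-connected minor is planar or of
treewidth at most `w` (any root clique); or one of the pieces of `K5.H56.SumPiece`.
-/

set_option autoImplicit false
set_option linter.all false

namespace Vale.Agent.P235.XC.H801

open SimpleGraph hiding Free
open Vale.Agent.P235 Vale.Agent.P235.H134 Vale.Agent.P235.H56 Vale.Agent.P235.K5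
open Vale.Agent.P235.H341W (capG)
open Vale.Agent.P235.K5.H281
open Vale.Agent.P235.K5.H477 (PR)

/-- planar or of treewidth at most `w` -/
def QQ (w : ℕ) (V : Type) (G : SimpleGraph V) : Prop :=
  (¬ IsMinor K33 G ∧ ¬ IsMinor (⊤ : SimpleGraph (Fin 5)) G) ∨ TreewidthLE G w

/-- every quasi-4-connected minor is planar or of treewidth at most `w` -/
def AllQ (w : ℕ) (V : Type) (G : SimpleGraph V) : Prop :=
  ∀ (W : Type) [Finite W] (K : SimpleGraph W), K.Connected → Quasi4 K → IsMinor K G → QQ w W K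

/-- A piece `G` with the clique `R` along which it is glued on. -/
def QPiece (w : ℕ) (C : ℝ) (V : Type) (G : SimpleGraph V) (R : Set V) : Prop :=
  TreewidthLE G w ∨ G.Connected ∧ (AllQ w V G ∨ ¬ IsMinor K33 (capG G R) ∨
    (R.ncard ≤ 2 ∧ EdgeIso G C) ∨ (R.ncard ≤ 1 ∧ DistortionLE G C))

/-- change of the class of pieces, the roots are cliques with at most `k` vertices -/
theorem rooted_imp' {k : ℕ} {P Q : ∀ V : Type, SimpleGraph V → Set V → Prop} {V : Type} [Finite V]
    {G : SimpleGraph V} {W R : Set V} (hRW : R ⊆ W)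
    (hRc : ∀ u ∈ R, ∀ v ∈ R, u ≠ v → G.Adj u v) (hRk : R.ncard ≤ k) (h : RootedOn k P G W R)
    (hPQ : ∀ (B : Set V) (K : SimpleGraph B) (T : Set B), T.ncard ≤ k →
      (∀ u ∈ T, ∀ v ∈ T, u ≠ v → K.Adj u v) → P B K T → Q B K T) :
    RootedOn k Q G W R := by
  obtain ⟨H, n, B, h⟩ := h
  refine ⟨H, n, B, ⟨h.le, h.pos, h.sub, h.cover, h.card, h.clique, h.sep, h.root,
    hPQ _ _ _ ((ncard_sub _ _).trans hRk) ?_ h.piece0,
    fun t a b => hPQ _ _ _ ((ncard_sub _ _).trans (h.card t b)) ?_ (h.piece t a b)⟩⟩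
  · intro u hu v hv huv
    exact h.le _ (hRW hu) _ (hRW hv) (hRc _ hu _ hv fun e => huv (Subtype.ext e))
  · intro u hu v hv huv
    exact h.clique t b _ hu _ hv fun e => huv (Subtype.ext e)

theorem tw_small {V : Type} [Finite V] (G : SimpleGraph V) {k : ℕ} (h : Nat.card V ≤ k + 1) :
    TreewidthLE G k := by
  classical
  have : Fintype V := Fintype.ofFinite V
  refine ⟨Unit, inferInstance, ⊥, fun _ => Finset.univ, SimpleGraph.IsTree.of_subsingleton,
    fun v => ⟨(), Finset.mem_univ v⟩, fun u v _ => ⟨(), Finset.mem_univ u, Finset.mem_univ v⟩,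
    fun v => ?_, fun _ => ?_⟩
  · rintro ⟨⟨⟩, _⟩ ⟨⟨⟩, _⟩
    exact SimpleGraph.Reachable.refl _
  · rw [Finset.card_univ, ← Nat.card_eq_fintype_card]
    exact h

/-- **Sums of pieces given by their quasi-4-connected minors**, no hypothesis. -/
theorem sumQ (w : ℕ) (C : ℝ) : ∃ K : ℝ, ∀ (V : Type) [Finite V] (G H : SimpleGraph V), G ≤ H →
    G.Connected → CliqueSum 3 (QPiece w C) H → DistortionLE G K := by
  obtain ⟨C0, hC0, h1, -⟩ := H12.main3
  set M : ℝ := max (max C C0) 1 with hM
  have hM1 : (1 : ℝ) ≤ M := le_max_right _ _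
  have hM0 : (0 : ℝ) < M := by linarith
  have hCM : C ≤ M := (le_max_left _ _).trans (le_max_left _ _)
  have hC0M : C0 ≤ M := (le_max_right _ _).trans (le_max_left _ _)
  obtain ⟨K, -, hK⟩ := SX.H801.finR (max w 3) (1 / M) (by positivity) ((div_le_one hM0).2 hM1)
  refine ⟨K, fun V _ G H hGH hG h => ?_⟩
  have := hG.nonempty
  obtain ⟨n, B, hB, hp⟩ := h
  have hcap : ∀ (W : Set V) (K : SimpleGraph W) (T : Set W), K.Connected →
      ¬ IsMinor K33 (capG K T) → PR (1 / M) W K T := by
    intro W K T h2 h3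
    exact H477.PR_of_PC ⟨h2, EdgeIso.edgeExact hM0 fun _ => ST.H626.EdgeIso.mono'
      (h1 W _ h2 fun h33 => h3 (minor_trans h33 (H56.minor_cap _ _))).1 hC0M, fun _ => h3⟩
  obtain ⟨H', hHH', hS⟩ := H266.refine_sum
    (P := fun V G R => TreewidthLE G (max w 3) ∨ PR (1 / M) V G R) hB fun t ht => by
      have hsub : Adh B t ⊆ B t := fun v hv => hv.1
      rcases hp t ht with h | ⟨hc', h | h | ⟨hR, h⟩ | ⟨hR, h⟩⟩
      · exact RootedOn.single hsub (Or.inl (treewidthLE_mono (le_max_left _ _) h))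
      · have hr := rooted4 (H.induce (B t)) _ (B t) (H.induce (B t)) {x | (x : V) ∈ Adh B t}
          (Nat.lt_succ_self _) hc' (minor_refl _)
          (fun u hu v hv huv => hB.clique t ht u hu v hv fun e => huv (Subtype.ext e))
          ((ncard_sub (B t) (Adh B t)).trans (hB.card t ht))
        refine rooted_imp' hsub (hB.clique t ht) (hB.card t ht)
          (RootedOn.of_induce (pm_iso _) hsub hr) ?_
        rintro W K T hT3 hTc ⟨g1, g2, g3, g4⟩
        rcases g3 with g3 | g3
        · exact Or.inl (tw_small K (by have := le_max_right w 3; omega))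
        · rcases h W K g1 g3 g2 with ⟨h33, h5⟩ | htw
          · exact Or.inr (hcap W K T g1
              (Vale.Agent.P235.H218K5.face' hTc hT3 g4 (fun _ => h5) h33))
          · exact Or.inl (treewidthLE_mono (le_max_left _ _) htw)
      · exact RootedOn.single hsub (Or.inr (hcap _ _ _ hc' h))
      · refine RootedOn.single hsub (Or.inr (H477.PR_of_PC ⟨hc', EdgeIso.edgeExact hM0 fun _ =>
          ST.H626.EdgeIso.mono' h hCM, fun h3 => ?_⟩))
        exact absurd h3 (by have := hR; omega)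
      · exact RootedOn.single hsub (Or.inr (H477.PR_of_dist hc' hM1 (h.mono hCM) hR))
  exact hK V G H' (hGH.trans hHH') hG hS

/-- one graph -/
theorem oneQ (w : ℕ) : ∃ K : ℝ, ∀ (V : Type) [Finite V] (G : SimpleGraph V), G.Connected →
    AllQ w V G → DistortionLE G K := by
  obtain ⟨K, hK⟩ := sumQ w 1
  refine ⟨K, fun V _ G hG h => hK V G G le_rfl hG ?_⟩
  have hadh : ∀ t, t < 1 → Adh (fun _ : ℕ => (Set.univ : Set V)) t = ∅ := by
    intro t ht
    ext v
    constructor
    · rintro ⟨_, s, hs, _⟩; omega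
    · intro h; exact h.elim
  refine ⟨1, fun _ => Set.univ, ⟨fun v => ⟨0, Nat.one_pos, trivial⟩, fun t ht => ?_,
    fun t ht u hu => ?_, fun t ht u v hu hu' hv => ?_⟩, fun t ht => ?_⟩
  · rw [hadh t ht]; simp
  · rw [hadh t ht] at hu; exact hu.elim
  · obtain ⟨s, hs, _⟩ := hv; omega
  · refine Or.inr ⟨?_, Or.inl ?_⟩
    · exact (Iso.connected_iff (SimpleGraph.induceUnivIso G)).2 hG
    · intro W _ K h1 h2 h3
      exact h W K h1 h2 (minor_trans h3 (minor_iso (SimpleGraph.induceUnivIso G).symm))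

end Vale.Agent.P235.XC.H801
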