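import Vale.Agent.P235.XC.Defs
import Vale.Agent.P235.XC.H801.Q4Sum

/-!
# Line XC, row [X8] (helper801): from `PieceStmt` to the theorem on graphs without the minor `TX r`
-/

set_option autoImplicit false
set_option linter.all false

namespace Vale.Agent.P235.XC.H801

open SimpleGraph hiding Free
open Vale.Agent.P235 Vale.Agent.P235.H134 Vale.Agent.P235.H56 Vale.Agent.P235.K5
open Vale.Agent.P235.H341W (capG)
open Vale.Agent.P235.H830 (nbr)
open Vale.Agent.P235.K5.H281 (Quasi4 Sep3)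

theorem sep3_of {V : Type} {G : SimpleGraph V} {D : Set V} (r : Fin 3 → V)
    (hr : ∀ v, v ∈ nbr G D ↔ ∃ i, v = r i) : Sep3 G r D ((D ∪ nbr G D)ᶜ) := by
  refine ⟨?_, fun i h => ?_, fun i h => h (Or.inr ((hr _).2 ⟨i, rfl⟩)), fun v => ?_, ?_⟩
  · rw [Set.disjoint_left]
    exact fun v hv hv' => hv' (Or.inl hv)
  · exact ((hr (r i)).2 ⟨i, rfl⟩).1 h
  · by_cases h1 : v ∈ D
    · exact Or.inl h1
    · by_cases h2 : v ∈ nbr G D
      · exact Or.inr (Or.inr ((hr v).1 h2))
      · exact Or.inr (Or.inl fun h => h.elim h1 h2)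
  · intro u hu v hv huv
    exact hv (Or.inr ⟨fun h => hv (Or.inl h), u, hu, huv⟩)

theorem q4_of_quasi4 {V : Type} [Finite V] {G : SimpleGraph V} (h : Quasi4 G) : Q4 G := by
  intro D hD
  have key : ∀ r : Fin 3 → V, (∀ v, v ∈ nbr G D ↔ ∃ i, v = r i) →
      D.ncard ≤ 1 ∨ ((D ∪ nbr G D)ᶜ).ncard ≤ 1 := fun r hr => h.2 r _ _ (sep3_of r hr)
  have hc : (nbr G D).ncard = 0 ∨ (nbr G D).ncard = 1 ∨ (nbr G D).ncard = 2 ∨
      (nbr G D).ncard = 3 := by omega
  rcases hc with h0 | h0 | h0 | h0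
  · have h1 : nbr G D = ∅ := by
      rwa [Set.ncard_eq_zero (Set.toFinite _)] at h0
    rcases D.eq_empty_or_nonempty with rfl | hne
    · left; simp
    · right
      by_cases hall : ∀ v, v ∈ D
      · have : (D ∪ nbr G D)ᶜ = ∅ := by
          ext v
          simp [hall v]
        rw [this]; simp
      · push Not at hall
        obtain ⟨s, hs⟩ := hall
        have h2 := h.1 s s D hne hs hs (fun u hu v huv => by
          by_cases hv : v ∈ D
          · exact Or.inl hv
          · have : v ∈ nbr G D := ⟨hv, u, hu, huv⟩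
            rw [h1] at this
            exact this.elim)
        have h3 : (D ∪ nbr G D)ᶜ ⊆ {s} := by
          intro v hv
          rcases h2 v with h4 | h4 | h4
          · exact (hv (Or.inl h4)).elim
          · exact h4
          · exact h4
        refine (Set.ncard_le_ncard h3 (Set.toFinite _)).trans ?_
        simp
  · obtain ⟨a, ha⟩ := Set.ncard_eq_one.1 h0
    refine key ![a, a, a] fun v => ?_
    rw [ha]
    constructor
    · intro hv; exact ⟨0, hv⟩
    · rintro ⟨i, rfl⟩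
      fin_cases i <;> simp
  · obtain ⟨a, b, -, ha⟩ := Set.ncard_eq_two.1 h0
    refine key ![a, b, b] fun v => ?_
    rw [ha]
    constructor
    · rintro (hv | hv)
      · exact ⟨0, hv⟩
      · exact ⟨1, hv⟩
    · rintro ⟨i, rfl⟩
      fin_cases i <;> simp
  · obtain ⟨a, b, c, -, -, -, ha⟩ := Set.ncard_eq_three.1 h0
    refine key ![a, b, c] fun v => ?_
    rw [ha]
    constructor
    · rintro (hv | hv | hv)
      · exact ⟨0, hv⟩
      · exact ⟨1, hv⟩
      · exact ⟨2, hv⟩
    · rintro ⟨i, rfl⟩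
      fin_cases i <;> simp

/-- graphs without the minor `TX r`: all quasi-4-connected minors are plane or of small treewidth -/
theorem noTX (hP : PieceStmt) (r : ℕ) (hr : 2 ≤ r) : ∃ w : ℕ, ∀ (V : Type) [Finite V]
    (G : SimpleGraph V), ¬ IsMinor (TX r) G → AllQ w V G := by
  obtain ⟨w, hw⟩ := hP r hr
  refine ⟨w, fun V _ G h W _ K h1 h2 h3 => ?_⟩
  rcases hw W K h2.1 (q4_of_quasi4 h2) (fun h4 => h (minor_trans h4 h3)) with h5 | h5
  · exact Or.inl h5
  · exact Or.inr h5

/-- A piece `G` with the clique `R` along which it is glued on: without the minor `TX r`, or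
`G` with a new vertex joined to `R` has no `K_{3,3}` minor, or `R` has at most two vertices and
`EdgeIso G C`, or `R` has at most one vertex and `c₁(G) ≤ C`, or of treewidth at most `w`. -/
def XPiece (r w : ℕ) (C : ℝ) (V : Type) (G : SimpleGraph V) (R : Set V) : Prop :=
  TreewidthLE G w ∨ G.Connected ∧ (¬ IsMinor (TX r) G ∨ ¬ IsMinor K33 (capG G R) ∨
    (R.ncard ≤ 2 ∧ EdgeIso G C) ∨ (R.ncard ≤ 1 ∧ DistortionLE G C))

theorem AllQ.mono {w w' : ℕ} (h : w ≤ w') {V : Type} {G : SimpleGraph V} (hG : AllQ w V G) :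
    AllQ w' V G := fun W _ K h1 h2 h3 =>
  (hG W K h1 h2 h3).imp_right (treewidthLE_mono h)

/-- **[X8]** sums over cliques with at most three vertices, in any order. -/
theorem sumX (hP : PieceStmt) (r : ℕ) (hr : 2 ≤ r) (w : ℕ) (C : ℝ) : ∃ K : ℝ, ∀ (V : Type)
    [Finite V] (G H : SimpleGraph V), G ≤ H → G.Connected → CliqueSum 3 (XPiece r w C) H →
      DistortionLE G K := by
  obtain ⟨w', hw'⟩ := noTX hP r hr
  obtain ⟨K, hK⟩ := sumQ (max w w') C
  refine ⟨K, fun V _ G H hGH hG h => hK V G H hGH hG ?_⟩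
  obtain ⟨n, B, hB, hp⟩ := h
  refine ⟨n, B, hB, fun t ht => ?_⟩
  rcases hp t ht with h1 | ⟨hc, h1 | h1 | h1⟩
  · exact Or.inl (treewidthLE_mono (le_max_left _ _) h1)
  · exact Or.inr ⟨hc, Or.inl ((hw' _ _ h1).mono (le_max_right _ _))⟩
  · exact Or.inr ⟨hc, Or.inr (Or.inl h1)⟩
  · exact Or.inr ⟨hc, Or.inr (Or.inr h1)⟩

/-- connected graphs without the minor `TX r` -/
theorem oneX (hP : PieceStmt) (r : ℕ) (hr : 2 ≤ r) : ∃ K : ℝ, ∀ (V : Type) [Finite V]
    (G : SimpleGraph V), G.Connected → ¬ IsMinor (TX r) G → DistortionLE G K := by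
  obtain ⟨w, hw⟩ := noTX hP r hr
  obtain ⟨K, hK⟩ := oneQ w
  exact ⟨K, fun V _ G hG h => hK V G hG (hw V G h)⟩

/-- connected graphs without the minor `M`, where `M` is a minor of some `TX r` -/
theorem minX (hP : PieceStmt) {W : Type} (M : SimpleGraph W) (r : ℕ) (hr : 2 ≤ r)
    (hM : IsMinor M (TX r)) : ∃ K : ℝ, ∀ (V : Type) [Finite V] (G : SimpleGraph V),
      G.Connected → ¬ IsMinor M G → DistortionLE G K := by
  obtain ⟨K, hK⟩ := oneX hP r hr
  exact ⟨K, fun V _ G hG h => hK V G hG fun h' => h (minor_trans hM h')⟩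

end Vale.Agent.P235.XC.H801
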